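import Vale.Agent.P198.G.Comb
import Vale.Agent.P198.G.Llc
import Vale.Agent.P198.G.Trip
import Vale.Agent.P198.G.Lox

/-! # P198 block G: geometry derived from the package (export point)

`GP.dist_le` is in G/Kit; `near step count cone asym` in G/Comb; `zoom` in G/Zoom; `llc1 llc2` in G/Llc;
`triples proper` in G/Trip; `lox` in G/Lox. -/
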